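import Vale.Agent.P318.R2.H704.SubTrans

open Finset Module

namespace Vale.Agent.P318.R2.H990

variable {F E : Type*} [Field F] [AddCommGroup E] [Module F E] [Fintype E]
  [Fintype (Submodule F E)]

/-- Triangular inversion: if `N t i = 0` for `t < i` and `N t t = 1`, every function `p` on
`0, …, j` is a combination of the columns `N · i`, `i ≤ j`. -/
theorem triangular (N : ℕ → ℕ → ℝ) (h0 : ∀ t i, t < i → N t i = 0) (j : ℕ)
    (h1 : ∀ t, t ≤ j → N t t = 1) (p : ℕ → ℝ) :
    ∃ a : ℕ → ℝ, ∀ t, t ≤ j → p t = ∑ i ∈ range (j + 1), a i * N t i := by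
  induction j with
  | zero =>
    refine ⟨fun _ => p 0, fun t ht => ?_⟩
    obtain rfl : t = 0 := by omega
    simp [h1 0 le_rfl]
  | succ j ih =>
    obtain ⟨a, ha⟩ := ih (fun t ht => h1 t (by omega))
    refine ⟨fun i => if i = j + 1 then p (j + 1) - ∑ i ∈ range (j + 1), a i * N (j + 1) i
      else a i, fun t ht => ?_⟩
    rw [sum_range_succ]
    have hs : ∑ x ∈ range (j + 1), (if x = j + 1 then
        p (j + 1) - ∑ i ∈ range (j + 1), a i * N (j + 1) i else a x) * N t x =
        ∑ i ∈ range (j + 1), a i * N t i := by
      refine sum_congr rfl fun i hi => ?_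
      rw [if_neg (by have := mem_range.1 hi; omega)]
    rw [hs]
    rcases Nat.lt_or_ge t (j + 1) with h | h
    · rw [h0 t (j + 1) h, mul_zero, add_zero]
      exact ha t (by omega)
    · obtain rfl : t = j + 1 := by omega
      rw [h1 _ le_rfl]
      simp

omit [Fintype E] in
open Classical in
/-- The number of the subspaces of dimension `i` below a subspace depends on its dimension only. -/
theorem card_sub_eq
    (hst : ∀ (S T S' T' : Submodule F E), finrank F S = finrank F S' →
      finrank F T = finrank F T' →
      finrank F (S ⊓ T : Submodule F E) = finrank F (S' ⊓ T' : Submodule F E) →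
      ∃ g : E ≃ₗ[F] E, S.map g.toLinearMap = S' ∧ T.map g.toLinearMap = T')
    (i : ℕ) (U V : Submodule F E) (h : finrank F U = finrank F V) :
    (univ.filter (fun L : Submodule F E => finrank F L = i ∧ L ≤ U)).card =
      (univ.filter (fun L : Submodule F E => finrank F L = i ∧ L ≤ V)).card := by
  obtain ⟨g, hg, -⟩ := hst U ⊥ V ⊥ h rfl (by rw [inf_bot_eq, inf_bot_eq])
  refine card_bij' (fun L _ => L.map g.toLinearMap) (fun L _ => L.map g.symm.toLinearMap)
    ?_ ?_ ?_ ?_
  · intro L hL
    simp only [mem_filter, mem_univ, true_and] at hL ⊢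
    refine ⟨?_, ?_⟩
    · rw [← hL.1]
      exact LinearEquiv.finrank_map_eq g L
    · rw [← hg]
      exact Submodule.map_mono hL.2
  · intro L hL
    simp only [mem_filter, mem_univ, true_and] at hL ⊢
    refine ⟨?_, ?_⟩
    · rw [← hL.1]
      exact LinearEquiv.finrank_map_eq g.symm L
    · have : U = V.map g.symm.toLinearMap := by
        rw [← hg, ← Submodule.map_comp]
        simp
      rw [this]
      exact Submodule.map_mono hL.2
  · intro L hL
    rw [← Submodule.map_comp]
    simp
  · intro L hL
    rw [← Submodule.map_comp]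
    simp

open Classical in
theorem delsarte_aux
    (hst : ∀ (S T S' T' : Submodule F E), finrank F S = finrank F S' →
      finrank F T = finrank F T' →
      finrank F (S ⊓ T : Submodule F E) = finrank F (S' ⊓ T' : Submodule F E) →
      ∃ g : E ≃ₗ[F] E, S.map g.toLinearMap = S' ∧ T.map g.toLinearMap = T')
    (j : ℕ) (g : Submodule F E → ℝ)
    (hg : ∀ L : Submodule F E, finrank F L < j →
      ∑ J ∈ univ.filter (fun J : Submodule F E => finrank F J = j ∧ L ≤ J), g J = 0)
    (p : ℕ → ℝ) :
    ∃ α : ℝ, ∀ U : Submodule F E,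
      ∑ J ∈ univ.filter (fun J : Submodule F E => finrank F J = j),
        g J * p (finrank F (U ⊓ J : Submodule F E)) =
      α * ∑ J ∈ univ.filter (fun J : Submodule F E => finrank F J = j ∧ J ≤ U), g J := by
  -- the number of `i`-dimensional subspaces of a `t`-dimensional space
  let N : ℕ → ℕ → ℝ := fun t i => if h : ∃ U : Submodule F E, finrank F U = t then
    ((univ.filter (fun L : Submodule F E => finrank F L = i ∧ L ≤ h.choose)).card : ℝ)
    else if t = i then 1 else 0
  have hN : ∀ (U : Submodule F E) (i : ℕ), N (finrank F U) i =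
      ((univ.filter (fun L : Submodule F E => finrank F L = i ∧ L ≤ U)).card : ℝ) := by
    intro U i
    have h : ∃ V : Submodule F E, finrank F V = finrank F U := ⟨U, rfl⟩
    simp only [N, dif_pos h]
    rw [card_sub_eq hst i h.choose U h.choose_spec]
  have h0 : ∀ t i, t < i → N t i = 0 := by
    intro t i hti
    by_cases h : ∃ U : Submodule F E, finrank F U = t
    · simp only [N, dif_pos h]
      rw [Nat.cast_eq_zero, card_eq_zero, filter_eq_empty_iff]
      rintro L - ⟨hL, hLU⟩
      have := Submodule.finrank_mono hLU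
      rw [hL, h.choose_spec] at this
      omega
    · simp only [N, dif_neg h, if_neg hti.ne]
  have h1 : ∀ t, N t t = 1 := by
    intro t
    by_cases h : ∃ U : Submodule F E, finrank F U = t
    · simp only [N, dif_pos h]
      rw [Nat.cast_eq_one, card_eq_one]
      refine ⟨h.choose, ?_⟩
      ext L
      simp only [mem_filter, mem_univ, true_and, mem_singleton]
      constructor
      · rintro ⟨hL, hLU⟩
        exact Submodule.eq_of_le_of_finrank_eq hLU (by rw [hL, h.choose_spec])
      · rintro rfl
        exact ⟨h.choose_spec, le_rfl⟩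
    · simp only [N, dif_neg h, if_true]
  obtain ⟨a, ha⟩ := triangular N h0 j (fun t _ => h1 t) p
  refine ⟨a j, fun U => ?_⟩
  -- expand
  have e1 : ∑ J ∈ univ.filter (fun J : Submodule F E => finrank F J = j),
        g J * p (finrank F (U ⊓ J : Submodule F E)) =
      ∑ J ∈ univ.filter (fun J : Submodule F E => finrank F J = j),
        ∑ i ∈ range (j + 1), a i * (g J *
          ((univ.filter (fun L : Submodule F E => finrank F L = i ∧ L ≤ U ⊓ J)).card : ℝ)) := by
    refine sum_congr rfl fun J hJ => ?_
    rw [mem_filter] at hJ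
    have hle : finrank F (U ⊓ J : Submodule F E) ≤ j := by
      rw [← hJ.2]
      exact Submodule.finrank_mono inf_le_right
    rw [ha _ hle, mul_sum]
    refine sum_congr rfl fun i _ => ?_
    rw [hN]
    ring
  have e2 : ∀ i, ∑ J ∈ univ.filter (fun J : Submodule F E => finrank F J = j), (g J *
          ((univ.filter (fun L : Submodule F E => finrank F L = i ∧ L ≤ U ⊓ J)).card : ℝ)) =
      ∑ L ∈ univ.filter (fun L : Submodule F E => finrank F L = i ∧ L ≤ U),
        ∑ J ∈ univ.filter (fun J : Submodule F E => finrank F J = j ∧ L ≤ J), g J := by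
    intro i
    have e3 : ∀ J : Submodule F E, g J *
        ((univ.filter (fun L : Submodule F E => finrank F L = i ∧ L ≤ U ⊓ J)).card : ℝ) =
        ∑ L ∈ univ.filter (fun L : Submodule F E => finrank F L = i ∧ L ≤ U),
          if L ≤ J then g J else 0 := by
      intro J
      rw [← sum_filter, sum_const, nsmul_eq_mul, mul_comm, filter_filter]
      congr 2
      congr 1
      ext L
      simp only [mem_filter, mem_univ, true_and, le_inf_iff]
      tauto
    simp_rw [e3]
    rw [sum_comm]
    refine sum_congr rfl fun L _ => ?_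
    rw [← sum_filter, filter_filter]
  rw [e1, sum_comm]
  simp_rw [← mul_sum]
  rw [sum_range_succ]
  have e4 : ∑ i ∈ range j, a i * ∑ J ∈ univ.filter (fun J : Submodule F E => finrank F J = j),
      (g J * ((univ.filter (fun L : Submodule F E => finrank F L = i ∧ L ≤ U ⊓ J)).card : ℝ))
      = 0 := by
    refine sum_eq_zero fun i hi => ?_
    rw [e2, sum_eq_zero, mul_zero]
    intro L hL
    rw [mem_filter] at hL
    exact hg L (by rw [hL.2.1]; exact mem_range.1 hi)
  rw [e4, zero_add, e2]
  congr 1
  refine sum_congr rfl fun L hL => ?_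
  rw [mem_filter] at hL
  have : univ.filter (fun J : Submodule F E => finrank F J = j ∧ L ≤ J) = {L} := by
    ext J
    simp only [mem_filter, mem_univ, true_and, mem_singleton]
    constructor
    · rintro ⟨hJ, hLJ⟩
      exact (Submodule.eq_of_le_of_finrank_eq hLJ (by rw [hL.2.1, hJ])).symm
    · rintro rfl
      exact ⟨hL.2.1, le_rfl⟩
  rw [this, sum_singleton]

open Classical in
/-- Delsarte: the kernel `p (dim (U ⊓ J))` acts on the functions of the top harmonic space of the
Grassmann scheme as a multiple of the inclusion matrix. -/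
theorem delsarte (j : ℕ) (g : Submodule F E → ℝ)
    (hg : ∀ L : Submodule F E, finrank F L < j →
      ∑ J ∈ univ.filter (fun J : Submodule F E => finrank F J = j ∧ L ≤ J), g J = 0)
    (p : ℕ → ℝ) :
    ∃ α : ℝ, ∀ U : Submodule F E,
      ∑ J ∈ univ.filter (fun J : Submodule F E => finrank F J = j),
        g J * p (finrank F (U ⊓ J : Submodule F E)) =
      α * ∑ J ∈ univ.filter (fun J : Submodule F E => finrank F J = j ∧ J ≤ U), g J :=
  delsarte_aux (fun S T S' T' h1 h2 h3 => H704.sub_trans S T S' T' h1 h2 h3) j g hg p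

end Vale.Agent.P318.R2.H990
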